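import Mathlib

/-!
# Radical splitting of an integral form, and coordinates of a subspace
-/

namespace Vale.Agent.P160R.Points

open Finset Matrix

/-- A unimodular basis adapted to the kernel of an integral symmetric matrix. -/
theorem exists_radical_split {r : ℕ} (N : Matrix (Fin r) (Fin r) ℤ) (hN : N.IsSymm) :
    ∃ (c₀ r₀ : ℕ) (T : Matrix (Fin r) (Fin c₀ ⊕ Fin r₀) ℤ)
      (T' : Matrix (Fin c₀ ⊕ Fin r₀) (Fin r) ℤ),
      c₀ + r₀ = r ∧ T * T' = 1 ∧ T' * T = 1 ∧
      N * T.submatrix id Sum.inl = 0 ∧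
      ((T.submatrix id Sum.inr)ᵀ * N * T.submatrix id Sum.inr).det ≠ 0 := by
  classical
  set K := LinearMap.ker N.mulVecLin with hK
  set Rg := LinearMap.range N.mulVecLin with hRg
  set f : (Fin r → ℤ) →ₗ[ℤ] Rg := N.mulVecLin.rangeRestrict
  obtain ⟨g, hg⟩ := LinearMap.exists_rightInverse_of_surjective f
    (LinearMap.range_eq_top.2 N.mulVecLin.surjective_rangeRestrict)
  have hg' : ∀ y, f (g y) = y := fun y => LinearMap.congr_fun hg y
  set bK := Module.finBasis ℤ K
  set bR := Module.finBasis ℤ Rg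
  have hbij : Function.Bijective (LinearMap.coprod K.subtype g : (K × Rg) →ₗ[ℤ] (Fin r → ℤ)) := by
    constructor
    · rintro ⟨a, y⟩ ⟨a', y'⟩ h
      simp only [LinearMap.coprod_apply, Submodule.subtype_apply] at h
      have hy : y = y' := by
        have h1 := congrArg f h
        have ha : ∀ b : K, f (b : Fin r → ℤ) = 0 := fun b => Subtype.ext (LinearMap.mem_ker.1 b.2)
        simpa [map_add, ha, hg'] using h1
      subst hy
      simpa using h
    · intro x
      have hx : x - g (f x) ∈ K := by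
        have : f (x - g (f x)) = 0 := by simp [hg']
        exact LinearMap.mem_ker.2 (congrArg Subtype.val this)
      exact ⟨(⟨_, hx⟩, f x), by simp⟩
  set b : Module.Basis (Fin (Module.finrank ℤ K) ⊕ Fin (Module.finrank ℤ Rg)) ℤ (Fin r → ℤ) :=
    (bK.prod bR).map (LinearEquiv.ofBijective _ hbij)
  have hl : ∀ i, b (Sum.inl i) = (bK i : Fin r → ℤ) := fun i => by simp [b]
  have hr : ∀ i, b (Sum.inr i) = g (bR i) := fun i => by simp [b]
  set e := Pi.basisFun ℤ (Fin r)
  set T : Matrix (Fin r) (Fin (Module.finrank ℤ K) ⊕ Fin (Module.finrank ℤ Rg)) ℤ :=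
    Matrix.of fun i j => b j i
  have hT : T = e.toMatrix b := by ext i j; simp [T, e, Module.Basis.toMatrix_apply]
  refine ⟨_, _, T, b.toMatrix e, ?_, ?_, ?_, ?_, ?_⟩
  · have h := Module.finrank_eq_card_basis b
    simpa using h.symm
  · rw [hT]; exact e.toMatrix_mul_toMatrix_flip b
  · rw [hT]; exact b.toMatrix_mul_toMatrix_flip e
  · ext i j
    have h : (N *ᵥ (bK j : Fin r → ℤ)) i = 0 := congrFun (LinearMap.mem_ker.1 (bK j).2) i
    simpa [Matrix.mul_apply, Matrix.mulVec, dotProduct, T, hl] using h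
  · intro hdet
    obtain ⟨y, hy, hDy⟩ := Matrix.exists_mulVec_eq_zero_iff.2 hdet
    set S := T.submatrix id Sum.inr with hS
    set R := T.submatrix id Sum.inl with hR
    have hNR : N * R = 0 := by
      ext i j
      have h : (N *ᵥ (bK j : Fin r → ℤ)) i = 0 := congrFun (LinearMap.mem_ker.1 (bK j).2) i
      simpa [Matrix.mul_apply, Matrix.mulVec, dotProduct, T, R, hl] using h
    have hTT : (b.toMatrix e)ᵀ * Tᵀ = 1 := by
      rw [← transpose_mul, hT, e.toMatrix_mul_toMatrix_flip b, transpose_one]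
    have h0 : Tᵀ *ᵥ (N *ᵥ (S *ᵥ y)) = 0 := by
      funext j
      cases j with
      | inl j =>
        have : (Rᵀ * N * S) *ᵥ y = 0 := by
          have : Rᵀ * N = 0 := by rw [← hN.eq, ← transpose_mul, hNR, transpose_zero]
          rw [this, Matrix.zero_mul, zero_mulVec]
        have h := congrFun this j
        rw [← mulVec_mulVec, ← mulVec_mulVec] at h
        exact h
      | inr j =>
        have h := congrFun hDy j
        rw [← mulVec_mulVec, ← mulVec_mulVec] at h
        exact h
    have h1 : N *ᵥ (S *ᵥ y) = 0 := by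
      have := congrArg ((b.toMatrix e)ᵀ *ᵥ ·) h0
      simpa only [mulVec_mulVec, hTT, one_mulVec, mulVec_zero, ← Matrix.mul_assoc,
        Matrix.one_mul] using this
    have h2 : S *ᵥ y = g (∑ j, y j • bR j) := by
      rw [map_sum]
      simp only [map_smul]
      funext i
      simp [S, T, hr, Matrix.mulVec, dotProduct, Finset.sum_apply, mul_comm]
    have h3 : (∑ j, y j • bR j) = 0 := by
      have : f (S *ᵥ y) = 0 := Subtype.ext h1
      rwa [h2, hg'] at this
    exact hy (funext fun j => by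
      simpa using (Fintype.linearIndependent_iff.1 bR.linearIndependent y h3 j))

/-- A subspace of functions is determined by a set of coordinates of at most its dimension. -/
theorem exists_coord {K ι : Type*} [Field K] [Fintype ι] :
    ∀ (d : ℕ) (U : Submodule K (ι → K)), Module.finrank K U ≤ d →
      ∃ S : Finset ι, S.card ≤ d ∧ ∀ u ∈ U, (∀ i ∈ S, u i = 0) → u = 0
  | 0, U, h => ⟨∅, le_rfl, fun u hu _ => by
      rw [Submodule.finrank_eq_zero.1 (Nat.le_zero.1 h)] at hu
      exact hu⟩
  | d + 1, U, h => by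
    classical
    by_cases hU : U = ⊥
    · exact ⟨∅, Nat.zero_le _, fun u hu _ => by rw [hU] at hu; exact hu⟩
    obtain ⟨u₀, hu₀, hne⟩ := Submodule.exists_mem_ne_zero_of_ne_bot hU
    obtain ⟨i₀, hi₀⟩ := Function.ne_iff.1 hne
    have hlt : U ⊓ LinearMap.ker (LinearMap.proj i₀ : (ι → K) →ₗ[K] K) < U := by
      refine lt_of_le_of_ne inf_le_left fun he => hi₀ ?_
      have := he.symm.le hu₀
      exact LinearMap.mem_ker.1 (Submodule.mem_inf.1 this).2
    have hd := Submodule.finrank_lt_finrank_of_lt hlt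
    obtain ⟨S, hS, hinj⟩ := exists_coord d
      (U ⊓ LinearMap.ker (LinearMap.proj i₀ : (ι → K) →ₗ[K] K)) (by omega)
    refine ⟨insert i₀ S, (card_insert_le _ _).trans (by omega), fun u hu hz => hinj u ?_ ?_⟩
    · exact Submodule.mem_inf.2 ⟨hu, LinearMap.mem_ker.2 (hz i₀ (mem_insert_self _ _))⟩
    · exact fun i hi => hz i (mem_insert_of_mem hi)

/-- An affine subspace of dimension `r` contains at most `2 ^ r` sign vectors. -/
theorem card_cube_le {ι : Type*} [Fintype ι] {r : ℕ} (U : Submodule ℚ (ι → ℚ))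
    (hU : Module.finrank ℚ U ≤ r) (y : ι → ℚ) (A : Finset (ι → Bool))
    (hA : ∀ x ∈ A, (fun i => (if x i then 1 else -1 : ℚ) - y i) ∈ U) :
    A.card ≤ 2 ^ r := by
  classical
  obtain ⟨S, hS, hinj⟩ := exists_coord r U hU
  refine le_trans (card_le_card_of_injOn (fun x (i : S) => x i) (fun x _ => mem_coe.2 (mem_univ _))
    fun x hx x' hx' he => ?_) (by
      rw [card_univ, Fintype.card_fun, Fintype.card_bool, Fintype.card_coe]
      exact Nat.pow_le_pow_right two_pos hS)
  have h := hinj _ (U.sub_mem (hA x hx) (hA x' hx')) fun i hi => by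
    simp [show x i = x' i from congrFun he ⟨i, hi⟩]
  funext i
  have hi := congrFun h i
  simp only [Pi.sub_apply, Pi.zero_apply] at hi
  cases hx : x i <;> cases hx' : x' i <;> simp_all <;> norm_num at hi

end Vale.Agent.P160R.Points
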