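import Vale.Agent.P160R.Points.Setup

/-!
# A sublattice of small majorant determinant is almost isotropic
-/

namespace Vale.Agent.P160R.Points

open Finset Matrix

variable {ι : Type} [Fintype ι] [DecidableEq ι]

lemma qmap_mul {κ lam μ : Type*} [Fintype lam] (X : Matrix κ lam ℤ) (Y : Matrix lam μ ℤ) :
    (X * Y).map (Int.cast : ℤ → ℚ) = X.map (Int.cast : ℤ → ℚ) * Y.map (Int.cast : ℤ → ℚ) := by
  ext i j; simp [Matrix.mul_apply]

/-- The radical splitting of the discriminant form on a sublattice. -/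
theorem exists_split {B : Matrix ι ι ℤ} (hB : B.IsSymm) (hdet : B.det ≠ 0) {r : ℕ}
    (X : Matrix ι (Fin r) ℤ) (hX : LinearIndependent ℚ fun c i => (X i c : ℚ)) :
    ∃ (c₀ r₀ : ℕ) (T : Matrix (Fin r) (Fin c₀ ⊕ Fin r₀) ℤ)
      (T' : Matrix (Fin c₀ ⊕ Fin r₀) (Fin r) ℤ),
      c₀ + r₀ = r ∧ T * T' = 1 ∧ T' * T = 1 ∧ (∀ v, (X * T) *ᵥ v = 0 → v = 0) ∧
      (rc (X * T.submatrix id Sum.inl))ᵀ * qR B * rc X = 0 ∧
      (((X * T.submatrix id Sum.inr).map (Int.cast : ℤ → ℚ))ᵀ * qInv B *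
        (X * T.submatrix id Sum.inr).map (Int.cast : ℤ → ℚ)).det ≠ 0 ∧
      (((X.map (Int.cast : ℤ → ℚ))ᵀ * qInv B * X.map (Int.cast : ℤ → ℚ))).rank = r₀ := by
  classical
  have hN : (Xᵀ * B.adjugate * X).IsSymm := by
    have : B.adjugateᵀ = B.adjugate := by rw [adjugate_transpose, hB.eq]
    simp [Matrix.IsSymm, transpose_mul, Matrix.mul_assoc, this]
  obtain ⟨c₀, r₀, T, T', hcr, hT, hT', hNR, hD⟩ := exists_radical_split _ hN
  refine ⟨c₀, r₀, T, T', hcr, hT, hT', ?_, ?_, ?_, ?_⟩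
  · intro v hv
    have h1 : X *ᵥ (T *ᵥ v) = 0 := by rw [mulVec_mulVec]; exact hv
    have h2 : T *ᵥ v = 0 := by
      funext j
      have h3 := Fintype.linearIndependent_iff.1 hX (fun c => ((T *ᵥ v) c : ℚ)) (by
        funext i
        rw [Finset.sum_apply]
        have := congrArg (Int.cast : ℤ → ℚ) (congrFun h1 i)
        simpa [Matrix.mulVec, dotProduct, mul_comm] using this) j
      exact_mod_cast h3
    have := congrArg (T' *ᵥ ·) h2
    simpa [hT'] using this
  · have h1 : (X * T.submatrix id Sum.inl)ᵀ * B.adjugate * X = 0 := by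
      have := congrArg Matrix.transpose hNR
      rw [transpose_mul, hN.eq, transpose_zero] at this
      rw [transpose_mul, ← this]
      simp only [Matrix.mul_assoc]
    rw [qR_eq, Matrix.mul_smul, Matrix.smul_mul, ← rc_transpose, ← rc_mul, ← rc_mul, h1]
    ext i j
    simp [rc]
  · set S := T.submatrix id Sum.inr
    have e : (X * S).map (Int.cast : ℤ → ℚ) = X.map (Int.cast : ℤ → ℚ) * S.map (Int.cast : ℤ → ℚ) :=
      qmap_mul X S
    have e2 : ((X * S).map (Int.cast : ℤ → ℚ))ᵀ * qInv B * (X * S).map (Int.cast : ℤ → ℚ)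
        = (B.det : ℚ)⁻¹ • (Sᵀ * (Xᵀ * B.adjugate * X) * S).map (Int.cast : ℤ → ℚ) := by
      rw [qInv_eq, Matrix.mul_smul, Matrix.smul_mul, ← transpose_map, ← qmap_mul, ← qmap_mul,
        transpose_mul]
      simp only [Matrix.mul_assoc]
    rw [e2, det_smul]
    refine mul_ne_zero (pow_ne_zero _ (inv_ne_zero (Int.cast_ne_zero.2 hdet))) ?_
    rw [show ((Sᵀ * (Xᵀ * B.adjugate * X) * S).map (Int.cast : ℤ → ℚ)).det
      = (((Sᵀ * (Xᵀ * B.adjugate * X) * S).det : ℤ) : ℚ) from ((Int.castRingHom ℚ).map_det _).symm]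
    exact Int.cast_ne_zero.2 hD
  · set N := Xᵀ * B.adjugate * X
    set S := T.submatrix id Sum.inr
    set mc := fun {a b : Type} (M : Matrix a b ℤ) => M.map (Int.cast : ℤ → ℚ)
    have hdq : IsUnit ((B.det : ℚ)⁻¹) := (inv_ne_zero (Int.cast_ne_zero.2 hdet)).isUnit
    have e2 : (X.map (Int.cast : ℤ → ℚ))ᵀ * qInv B * X.map (Int.cast : ℤ → ℚ)
        = (B.det : ℚ)⁻¹ • N.map (Int.cast : ℤ → ℚ) := by
      rw [qInv_eq, Matrix.mul_smul, Matrix.smul_mul, ← transpose_map, ← qmap_mul, ← qmap_mul]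
    rw [e2, ← Matrix.one_mul (N.map (Int.cast : ℤ → ℚ)), ← Matrix.smul_mul,
      rank_mul_eq_right_of_isUnit_det _ _ (by rw [det_smul, det_one, mul_one]; exact hdq.pow _)]
    refine le_antisymm ?_ ?_
    · have hz : N * T = fromCols (0 : Matrix (Fin r) (Fin c₀) ℤ) (N * S) := by
        ext i j
        cases j with
        | inl j => simpa [Matrix.mul_apply] using congrFun (congrFun hNR i) j
        | inr j => simp [Matrix.mul_apply, S]
      have hN' : N.map (Int.cast : ℤ → ℚ) = (N * S).map (Int.cast : ℤ → ℚ) *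
          ((fromCols (0 : Matrix (Fin r₀) (Fin c₀) ℤ) (1 : Matrix (Fin r₀) (Fin r₀) ℤ) :
            Matrix (Fin r₀) (Fin c₀ ⊕ Fin r₀) ℤ) * T').map (Int.cast : ℤ → ℚ) := by
        rw [← qmap_mul, ← Matrix.mul_assoc, mul_fromCols, Matrix.mul_zero,
          Matrix.mul_one, ← hz, Matrix.mul_assoc, hT, Matrix.mul_one]
      rw [hN']
      exact (rank_mul_le_right _ _).trans ((rank_le_card_height _).trans (by simp))
    · have h1 : ((Sᵀ * N * S).map (Int.cast : ℤ → ℚ)).rank = r₀ := by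
        rw [rank_of_isUnit, Fintype.card_fin]
        rw [Matrix.isUnit_iff_isUnit_det, show ((Sᵀ * N * S).map (Int.cast : ℤ → ℚ)).det
          = (((Sᵀ * N * S).det : ℤ) : ℚ) from ((Int.castRingHom ℚ).map_det _).symm]
        exact (Int.cast_ne_zero.2 hD).isUnit
      rw [← h1, qmap_mul, qmap_mul]
      exact (rank_mul_le_left _ _).trans (rank_mul_le_right _ _)

/-- In a lattice of small weight a sublattice of small majorant determinant has form rank
little more than its radical. -/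
theorem form_rank_bound {B : Matrix ι ι ℤ} (hB : B.IsSymm) (hdet : B.det ≠ 0) {s w : ℝ}
    (hs : 1 ≤ s) {L : AddSubgroup (ι → ℤ)} (hL : LatW B w L)
    (H : Submodule ℝ (ι → ℝ)) {k : ℕ} (hk : Fintype.card ι ≤ Module.finrank ℝ H + k)
    (hH : ∀ x ∈ H, |x ⬝ᵥ (qR B *ᵥ x)| ≤ (s ^ 2)⁻¹ * (x ⬝ᵥ x))
    {r : ℕ} (X : Matrix ι (Fin r) ℤ) (hX : LinearIndependent ℚ fun c i => (X i c : ℚ))
    (hXL : ∀ c, (fun i => X i c) ∈ L) (hgram : ((rc X)ᵀ * maj B s⁻¹ * rc X).det ≤ 2) :
    ∃ c₀ r₀ : ℕ, c₀ + r₀ = r ∧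
      (((X.map (Int.cast : ℤ → ℚ))ᵀ * qInv B * X.map (Int.cast : ℤ → ℚ))).rank = r₀ ∧
      Real.exp (-w) * s ^ r₀ ≤ 2 * s ^ (4 * k + c₀) := by
  classical
  obtain ⟨c₀, r₀, T, T', hcr, hT, hT', hinj, hrad, hD, hrank⟩ := exists_split hB hdet X hX
  refine ⟨c₀, r₀, hcr, hrank, ?_⟩
  have hs0 : 0 < s := lt_of_lt_of_le one_pos hs
  have ha : 0 < s⁻¹ := inv_pos.2 hs0
  set R := rc (X * T.submatrix id Sum.inl) with hRdef
  set S := rc (X * T.submatrix id Sum.inr) with hSdef
  set M := maj B s⁻¹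
  have hW : rc (X * T) = fromCols R S := by
    ext i j
    cases j <;> simp [R, S, rc, Matrix.mul_apply]
  have hWinj : ∀ c, rc (X * T) *ᵥ c = 0 → c = 0 := (gram_pos _ hinj).2.2
  have hRinj : ∀ c, (X * T.submatrix id Sum.inl) *ᵥ c = 0 → c = 0 := fun c hc => by
    have := hinj (Sum.elim c 0) (by
      funext i
      have h := congrFun hc i
      simpa [Matrix.mulVec, dotProduct, Matrix.mul_apply, Fintype.sum_sum_type] using h)
    funext j
    exact congrFun this (Sum.inl j)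
  set A := Rᵀ * M * R with hA
  set A' := (rc (X * T))ᵀ * M * rc (X * T)
  have hblock : A' = fromBlocks A (Rᵀ * M * S) (Sᵀ * M * R) (Sᵀ * M * S) := by
    simp only [A', hW, transpose_fromCols, fromRows_mul, mul_fromCols, A]
    ext i j
    cases i <;> cases j <;> rfl
  have hTdet : A'.det = ((rc X)ᵀ * M * rc X).det := by
    set e := Fintype.equivOfCardEq (α := Fin c₀ ⊕ Fin r₀) (β := Fin r) (by simp [hcr])
    set T₂ := T.submatrix id e.symm
    set T₂' := T'.submatrix e.symm id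
    have h1 : T₂ * T₂' = 1 := by
      rw [submatrix_mul_equiv, hT, submatrix_id_id]
    have h2 : (rc T₂).det ^ 2 = 1 := by
      rw [det_rc]
      rcases Int.eq_one_or_neg_one_of_mul_eq_one (by rw [← det_mul, h1, det_one] :
        T₂.det * T₂'.det = 1) with h | h <;> simp [h]
    have h3 : A'.submatrix e.symm e.symm = (rc T₂)ᵀ * ((rc X)ᵀ * M * rc X) * rc T₂ := by
      simp only [A', rc_mul, transpose_mul, Matrix.mul_assoc]
      ext i j
      simp [T₂, rc, Matrix.mul_apply, Finset.mul_sum]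
    rw [← det_submatrix_equiv_self e.symm A', h3, det_mul, det_mul, det_transpose]
    linear_combination ((rc X)ᵀ * M * rc X).det * h2
  have hApd : A.PosDef := maj_pos B ha R (gram_pos _ hRinj).2.2
  have : Invertible A := hApd.isUnit.invertible
  set K := A⁻¹ * (Rᵀ * M * S) with hK
  set Y := S - R * K with hY
  have hAK : A * K = Rᵀ * M * S := by
    rw [hK, ← Matrix.mul_assoc, Matrix.mul_nonsing_inv A ((Matrix.isUnit_iff_isUnit_det A).1
      hApd.isUnit), Matrix.one_mul]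
  have hMs : Mᵀ = M := (maj_symm B s⁻¹).eq
  have hSchur : Yᵀ * M * Y = Sᵀ * M * S - Sᵀ * M * R * A⁻¹ * (Rᵀ * M * S) := by
    have h1 : Rᵀ * M * Y = 0 := by
      rw [hY, Matrix.mul_sub, ← Matrix.mul_assoc, ← hA, hAK, sub_self]
    calc Yᵀ * M * Y = Sᵀ * M * Y - Kᵀ * (Rᵀ * M * Y) := by
          rw [hY]; simp only [transpose_sub, transpose_mul, Matrix.sub_mul, Matrix.mul_assoc]
      _ = _ := by
          rw [h1, Matrix.mul_zero, sub_zero, hY, Matrix.mul_sub, hK]
          simp only [Matrix.mul_assoc]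
  have hdet' : A.det * (Yᵀ * M * Y).det = ((rc X)ᵀ * M * rc X).det := by
    rw [← hTdet, hblock, det_fromBlocks₁₁, hSchur, invOf_eq_nonsing_inv]
  have hA1 : s⁻¹ ^ c₀ ≤ A.det := by
    refine le_trans ?_ (gram_le_maj B ha _ hRinj)
    rw [Fintype.card_fin]
    exact le_mul_of_one_le_right (by positivity) (gram_pos _ hRinj).2.1
  have hYinj : ∀ c, Y *ᵥ c = 0 → c = 0 := fun c hc => by
    have := hWinj (Sum.elim (-(K *ᵥ c)) c) (by
      rw [hW, fromCols_mulVec, Sum.elim_comp_inl, Sum.elim_comp_inr, mulVec_neg, mulVec_mulVec, neg_add_eq_sub, ← sub_mulVec]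
      exact hc)
    funext j
    exact congrFun this (Sum.inr j)
  have hYpd := maj_pos B ha Y hYinj
  have hQR : Rᵀ * qR B * S = 0 := by
    rw [hSdef, rc_mul X, ← Matrix.mul_assoc, hRdef, hrad, Matrix.zero_mul]
  have hQRR : Rᵀ * qR B * R = 0 := by
    conv_lhs => arg 2; rw [hRdef, rc_mul X]
    rw [← Matrix.mul_assoc, hRdef, hrad, Matrix.zero_mul]
  have hQY : Yᵀ * qR B * Y = Sᵀ * qR B * S := by
    have h1 : Sᵀ * qR B * R = 0 := by
      have := congrArg Matrix.transpose hQR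
      simpa [transpose_mul, (qR_symm hB).eq, Matrix.mul_assoc] using this
    rw [hY]
    simp only [transpose_sub, transpose_mul, Matrix.sub_mul, Matrix.mul_sub]
    rw [show Kᵀ * Rᵀ * qR B * S = Kᵀ * (Rᵀ * qR B * S) by simp only [Matrix.mul_assoc],
      show Kᵀ * Rᵀ * qR B * (R * K) = Kᵀ * (Rᵀ * qR B * R) * K by simp only [Matrix.mul_assoc],
      ← Matrix.mul_assoc (Sᵀ * qR B) R K, h1, hQR, hQRR]
    simp
  have hlat : Real.exp (-w) ≤ |(Yᵀ * qR B * Y).det| := by
    refine le_trans (hL r₀ (X * T.submatrix id Sum.inr) (fun c => ?_) hD) (le_of_eq ?_)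
    · have : (fun i => (X * T.submatrix id Sum.inr) i c) = ∑ j, T j (Sum.inr c) • fun i => X i j := by
        funext i
        simp [Matrix.mul_apply, Finset.sum_apply, mul_comm]
      rw [this]
      exact L.sum_mem fun j _ => L.zsmul_mem (hXL j) _
    · rw [hQY, hSdef, qR_eq, qInv_eq, Matrix.mul_smul, Matrix.smul_mul, det_smul,
        Matrix.mul_smul, Matrix.smul_mul, det_smul, ← rc_transpose, ← rc_mul, ← rc_mul, det_rc,
        ← transpose_map, ← qmap_mul, ← qmap_mul,
        show (((X * T.submatrix id Sum.inr)ᵀ * B.adjugate * (X * T.submatrix id Sum.inr)).map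
          (Int.cast : ℤ → ℚ)).det = _ from ((Int.castRingHom ℚ).map_det _).symm]
      simp
  set H' : Submodule ℝ (Fin r₀ → ℝ) := H.comap Y.mulVecLin
  have hH'dim : Fintype.card (Fin r₀) ≤ Module.finrank ℝ H' + k := by
    have hYi : Function.Injective Y.mulVecLin := fun a b h => by
      refine sub_eq_zero.1 (hYinj (a - b) ?_)
      rw [mulVec_sub, sub_eq_zero]
      exact h
    have e1 : Module.finrank ℝ H' = Module.finrank ℝ (H'.map Y.mulVecLin : Submodule ℝ (ι → ℝ)) :=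
      (Submodule.equivMapOfInjective _ hYi H').finrank_eq
    have e2 : H'.map Y.mulVecLin = LinearMap.range Y.mulVecLin ⊓ H := Submodule.map_comap_eq _ _
    have e3 := Submodule.finrank_sup_add_finrank_inf_eq (LinearMap.range Y.mulVecLin) H
    have e4 := Submodule.finrank_le (LinearMap.range Y.mulVecLin ⊔ H)
    have e5 := LinearMap.finrank_range_of_inj hYi
    rw [Module.finrank_fintype_fun_eq_card] at e4 e5
    rw [e1, e2]
    omega
  have key := abs_det_le hYpd (pull_symm (qR_symm hB) Y) (α := s⁻¹) (β := s) ha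
    ((inv_le_one_of_one_le₀ hs).trans hs) H' hH'dim
    (fun c hc => by
      rw [form_pull, form_pull]
      refine (hH _ hc).trans ?_
      rw [maj_form, ← mul_assoc, show s⁻¹ * s⁻¹ = (s ^ 2)⁻¹ by rw [sq, mul_inv]]
      refine mul_le_mul_of_nonneg_left (le_add_of_nonneg_right ?_) (by positivity)
      rw [dot_self]
      positivity)
    (fun c => by
      rw [form_pull, form_pull]
      refine (abs_form_le B ha _).trans (mul_le_mul_of_nonneg_right ?_ ?_)
      · rw [mul_inv, inv_inv]; linarith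
      · rw [maj_form, dot_self, dot_self]; positivity)
  rw [Fintype.card_fin] at key
  have hS2 : (Yᵀ * M * Y).det ≤ 2 * s ^ c₀ := by
    have h : s⁻¹ ^ c₀ * (Yᵀ * M * Y).det ≤ 2 :=
      le_trans (mul_le_mul_of_nonneg_right hA1 hYpd.det_pos.le) (hdet'.le.trans hgram)
    rwa [inv_pow, inv_mul_le_iff₀ (by positivity), mul_comm] at h
  have hfin := hlat.trans (key.trans (mul_le_mul_of_nonneg_left hS2 (by positivity)))
  calc Real.exp (-w) * s ^ r₀
      ≤ s⁻¹ ^ r₀ * (s / s⁻¹) ^ (2 * k) * (2 * s ^ c₀) * s ^ r₀ :=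
        mul_le_mul_of_nonneg_right hfin (by positivity)
    _ = 2 * s ^ (4 * k + c₀) := by
        rw [div_inv_eq_mul, ← sq, ← pow_mul, inv_pow, pow_add]
        field_simp
        ring

end Vale.Agent.P160R.Points
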