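import Vale.Agent.P160R.Defs

/-!
# The slope budget between polylogarithms and powers
-/

namespace Vale.Agent.P160R.Points

open Filter Real

/-- The square root of the slope `2 ^ lBudget`. -/
noncomputable def slope (m : ℕ) : ℝ := (2 : ℝ) ^ (lBudget m / 2)

lemma one_le_slope (m : ℕ) : 1 ≤ slope m :=
  one_le_rpow one_le_two (div_nonneg (sq_nonneg _) two_pos.le)

lemma slope_pos (m : ℕ) : 0 < slope m := lt_of_lt_of_le one_pos (one_le_slope m)

lemma slope_eq (m : ℕ) : slope m = exp (log 2 / 2 * lBudget m) := by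
  rw [slope, rpow_def_of_pos two_pos]
  ring_nf

lemma tendsto_loglog : Tendsto (fun m : ℕ => log (log m)) atTop atTop :=
  tendsto_log_atTop.comp (tendsto_log_atTop.comp tendsto_natCast_atTop_atTop)

lemma tendsto_slope : Tendsto slope atTop atTop := by
  have h : Tendsto (fun m : ℕ => log 2 / 2 * lBudget m) atTop atTop :=
    ((tendsto_pow_atTop two_ne_zero).comp tendsto_loglog).const_mul_atTop
      (by positivity [log_pos one_lt_two])
  exact (tendsto_exp_atTop.comp h).congr fun m => (slope_eq m).symm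

lemma eventually_slope_le : ∀ᶠ m : ℕ in atTop, slope m ^ 4 ≤ (m : ℝ) ^ (1 / 10 : ℝ) := by
  have h2 : ∀ᶠ m : ℕ in atTop, log (log m) ^ 2 ≤ 1 / 20 * log m := by
    have hl := (isLittleO_pow_log_id_atTop (n := 2)).bound (show (0:ℝ) < 1 / 20 by norm_num)
    have hm := (tendsto_log_atTop.comp (tendsto_natCast_atTop_atTop (R := ℝ)))
    filter_upwards [hm.eventually hl, hm.eventually_ge_atTop 0] with m h1 h0
    simp only [Function.comp_apply, id_eq, norm_eq_abs] at h1 h0
    exact le_trans (le_abs_self _) (h1.trans_eq (by rw [abs_of_nonneg h0]))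
  filter_upwards [h2, eventually_gt_atTop 0] with m hm h0
  rw [slope_eq, ← exp_nat_mul, rpow_def_of_pos (Nat.cast_pos.2 h0), exp_le_exp, lBudget]
  have h3 := log_two_lt_d9
  push_cast
  nlinarith [sq_nonneg (log (log (m : ℝ)))]

lemma eventually_cover_le (k : ℕ) (C K : ℝ) (hC : 0 < C) (hK : 0 ≤ K) {ε : ℝ} (hε : 0 < ε) :
    ∀ᶠ m : ℕ in atTop, C * log ((m : ℝ) + 2) ^ k * (K * m / slope m + 1) ≤ ε * m := by
  have hu := tendsto_loglog
  have h1 : ∀ᶠ m : ℕ in atTop, (2 * log m) ^ k / slope m ≤ ε / (2 * C * (K + 1)) := by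
    have hbase : ∀ᶠ u : ℝ in atTop,
        2 ^ k * exp (k * u - log 2 / 2 * u ^ 2) ≤ ε / (2 * C * (K + 1)) := by
      have : Tendsto (fun u : ℝ => (k : ℝ) * u - log 2 / 2 * u ^ 2) atTop atBot := by
        have : Tendsto (fun u : ℝ => u * (log 2 / 2 * u - k)) atTop atTop :=
          tendsto_id.atTop_mul_atTop₀ (tendsto_atTop_add_const_right atTop (-(k : ℝ))
            (tendsto_id.const_mul_atTop (by positivity [log_pos one_lt_two])))
        exact (tendsto_neg_atTop_atBot.comp this).congr fun u => by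
          simp only [Function.comp_apply]; ring
      have h := (tendsto_exp_atBot.comp this).const_mul ((2 : ℝ) ^ k)
      rw [mul_zero] at h
      exact h.eventually_le_const (by positivity)
    filter_upwards [hu.eventually hbase, (tendsto_log_atTop.comp
      (tendsto_natCast_atTop_atTop (R := ℝ))).eventually_gt_atTop 0] with m hm hl
    simp only [Function.comp_apply] at hl
    refine le_trans (le_of_eq ?_) hm
    rw [slope_eq, lBudget, exp_sub, mul_pow, exp_nat_mul, exp_log hl, ← mul_div_assoc]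
  have h2 : ∀ᶠ m : ℕ in atTop, C * (2 * log m) ^ k ≤ ε / 2 * m := by
    have hl := (isLittleO_pow_log_id_atTop (n := k)).bound
      (show (0:ℝ) < ε / (2 * C * 2 ^ k) by positivity)
    filter_upwards [(tendsto_natCast_atTop_atTop (R := ℝ)).eventually hl] with m h
    simp only [id_eq, norm_eq_abs, Nat.abs_cast] at h
    calc C * (2 * log m) ^ k = C * 2 ^ k * log m ^ k := by rw [mul_pow]; ring
      _ ≤ C * 2 ^ k * (ε / (2 * C * 2 ^ k) * m) :=
          mul_le_mul_of_nonneg_left ((le_abs_self _).trans h) (by positivity)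
      _ = ε / 2 * m := by field_simp
  filter_upwards [h1, h2, eventually_ge_atTop 3] with m h1 h2 hm
  have hm' : (3:ℝ) ≤ m := by exact_mod_cast hm
  have hlog : log ((m : ℝ) + 2) ^ k ≤ (2 * log m) ^ k := by
    refine pow_le_pow_left₀ (log_nonneg (by linarith)) ?_ k
    rw [show 2 * log (m : ℝ) = log ((m : ℝ) ^ 2) by rw [log_pow]; norm_num]
    exact log_le_log (by positivity) (by nlinarith)
  have hs := slope_pos m
  calc C * log ((m : ℝ) + 2) ^ k * (K * m / slope m + 1)
      ≤ C * (2 * log m) ^ k * (K * m / slope m + 1) := by gcongr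
    _ = C * K * ((2 * log m) ^ k / slope m) * m + C * (2 * log m) ^ k := by ring
    _ ≤ C * (K + 1) * (ε / (2 * C * (K + 1))) * m + ε / 2 * m := by
        have : 0 ≤ (2 * log (m:ℝ)) ^ k := pow_nonneg (by positivity [log_nonneg (by linarith : (1:ℝ) ≤ m)]) k
        refine add_le_add (mul_le_mul_of_nonneg_right (mul_le_mul ?_ h1 ?_ ?_) (Nat.cast_nonneg m)) h2
        · nlinarith
        · positivity
        · positivity
    _ = ε * m := by field_simp; ring

end Vale.Agent.P160R.Points
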