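import Mathlib

/-!
# Determinants of quadratic forms compared with a positive form
-/

namespace Vale.Agent.P160R.Points

open Finset Matrix

variable {κ : Type*} [Fintype κ] [DecidableEq κ]

/-- A real symmetric matrix has an orthogonal eigenbasis. -/
theorem exists_orth_diag (A : Matrix κ κ ℝ) (hA : A.IsSymm) :
    ∃ (U : Matrix κ κ ℝ) (l : κ → ℝ), Uᵀ * U = 1 ∧ U * Uᵀ = 1 ∧ Uᵀ * A * U = diagonal l := by
  have hH : A.IsHermitian := by
    rw [Matrix.IsHermitian, conjTranspose_eq_transpose_of_trivial]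
    exact hA
  set U : Matrix κ κ ℝ := (hH.eigenvectorUnitary : Matrix κ κ ℝ) with hU
  have hs : star U = Uᵀ := by rw [star_eq_conjTranspose, conjTranspose_eq_transpose_of_trivial]
  refine ⟨U, hH.eigenvalues, ?_, ?_, ?_⟩
  · rw [← hs]; exact Unitary.coe_star_mul_self _
  · rw [← hs]; exact Unitary.coe_mul_star_self _
  · have h := hH.conjStarAlgAut_star_eigenvectorUnitary
    rw [Unitary.conjStarAlgAut_star_apply, ← hU, hs] at h
    simpa using h

/-- A positive form and a symmetric form are diagonal in a common basis. -/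
theorem exists_simul_diag {P Q : Matrix κ κ ℝ} (hP : P.PosDef) (hQ : Q.IsSymm) :
    ∃ (T : Matrix κ κ ℝ) (μ : κ → ℝ), Tᵀ * P * T = 1 ∧ Tᵀ * Q * T = diagonal μ := by
  have hPs : P.IsSymm := by
    have h := hP.1
    rw [Matrix.IsHermitian, conjTranspose_eq_transpose_of_trivial] at h
    exact h
  obtain ⟨U, p, hU1, hU2, hUP⟩ := exists_orth_diag P hPs
  have hp : ∀ i, 0 < p i := fun i => by
    have hne : U *ᵥ Pi.single i 1 ≠ 0 := fun h => by
      have := congrArg (fun v => (Uᵀ *ᵥ v) i) h
      simp only [mulVec_mulVec, hU1, one_mulVec, mulVec_zero, Pi.single_eq_same,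
        Pi.zero_apply] at this
      exact one_ne_zero this
    have h := hP.dotProduct_mulVec_pos hne
    have e : (U *ᵥ Pi.single i 1) ⬝ᵥ (P *ᵥ (U *ᵥ Pi.single i 1)) = p i := by
      rw [mulVec_mulVec, dotProduct_mulVec, ← mulVec_transpose, mulVec_mulVec, transpose_mul,
        hPs.eq, hUP]
      simp
    rwa [star_trivial, e] at h
  set T₁ : Matrix κ κ ℝ := U * diagonal (fun i => (Real.sqrt (p i))⁻¹) with hT₁
  have h1 : T₁ᵀ * P * T₁ = 1 := by
    rw [hT₁, transpose_mul, diagonal_transpose]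
    calc diagonal (fun i => (Real.sqrt (p i))⁻¹) * Uᵀ * P *
          (U * diagonal (fun i => (Real.sqrt (p i))⁻¹))
        = diagonal (fun i => (Real.sqrt (p i))⁻¹) * (Uᵀ * P * U) *
          diagonal (fun i => (Real.sqrt (p i))⁻¹) := by simp only [Matrix.mul_assoc]
      _ = 1 := by
          rw [hUP, diagonal_mul_diagonal, diagonal_mul_diagonal, ← diagonal_one]
          congr 1
          funext i
          rw [mul_comm, ← mul_assoc, ← mul_inv, Real.mul_self_sqrt (hp i).le,
            inv_mul_cancel₀ (hp i).ne']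
  have hQ₁ : (T₁ᵀ * Q * T₁).IsSymm := by
    simp [Matrix.IsSymm, transpose_mul, Matrix.mul_assoc, hQ.eq]
  obtain ⟨V, μ, hV1, -, hVQ⟩ := exists_orth_diag _ hQ₁
  refine ⟨T₁ * V, μ, ?_, ?_⟩
  · calc (T₁ * V)ᵀ * P * (T₁ * V) = Vᵀ * (T₁ᵀ * P * T₁) * V := by
          simp only [transpose_mul, Matrix.mul_assoc]
      _ = 1 := by rw [h1, Matrix.mul_one, hV1]
  · rw [← hVQ]
    simp only [transpose_mul, Matrix.mul_assoc]

omit [DecidableEq κ] in
lemma form_mulVec (A T : Matrix κ κ ℝ) (c : κ → ℝ) :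
    (T *ᵥ c) ⬝ᵥ (A *ᵥ (T *ᵥ c)) = c ⬝ᵥ ((Tᵀ * A * T) *ᵥ c) := by
  rw [← mulVec_mulVec, ← mulVec_mulVec, dotProduct_comm, dotProduct_mulVec, ← mulVec_transpose,
    dotProduct_comm]

lemma form_diag (μ c : κ → ℝ) : c ⬝ᵥ (diagonal μ *ᵥ c) = ∑ i, μ i * c i ^ 2 := by
  simp only [dotProduct, mulVec_diagonal]
  exact sum_congr rfl fun i _ => by ring

/-- Directions on which the form exceeds `α` avoid a subspace on which it does not. -/
lemma card_big_le {P Q T : Matrix κ κ ℝ} {μ : κ → ℝ} (hT : Tᵀ * P * T = 1)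
    (hμ : Tᵀ * Q * T = diagonal μ) (H : Submodule ℝ (κ → ℝ)) {k : ℕ}
    (hdim : Fintype.card κ ≤ Module.finrank ℝ H + k) {α : ℝ}
    (hH : ∀ x ∈ H, x ⬝ᵥ (Q *ᵥ x) ≤ α * (x ⬝ᵥ (P *ᵥ x))) :
    (univ.filter fun i => α < μ i).card ≤ k := by
  classical
  set S := univ.filter fun i => α < μ i
  set E : Submodule ℝ (κ → ℝ) := Submodule.map T.mulVecLin
    (Submodule.span ℝ (Set.range fun i : S => Pi.single (i : κ) (1 : ℝ)))
  have hinj : Function.Injective T.mulVecLin := fun a b h => by
    have := congrArg (fun v => (Tᵀ * P) *ᵥ v) h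
    simpa [hT] using this
  have hE : Module.finrank ℝ E = S.card := by
    rw [show E = _ from rfl, (Submodule.equivMapOfInjective _ hinj _).finrank_eq.symm]
    rw [finrank_span_eq_card, Fintype.card_coe]
    have h := (Pi.basisFun ℝ κ).linearIndependent.comp (fun i : S => (i : κ))
      Subtype.val_injective
    convert h using 1
    funext i
    simp
  have hdisj : E ⊓ H = ⊥ := by
    rw [Submodule.eq_bot_iff]
    intro x hx
    obtain ⟨hxE, hxH⟩ := Submodule.mem_inf.1 hx
    obtain ⟨c, hc, rfl⟩ := Submodule.mem_map.1 hxE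
    have hsupp : ∀ i, i ∉ S → c i = 0 := fun i hi => by
      have : Submodule.span ℝ (Set.range fun i : S => Pi.single (i : κ) (1 : ℝ)) ≤
          LinearMap.ker (LinearMap.proj i : (κ → ℝ) →ₗ[ℝ] ℝ) := by
        rw [Submodule.span_le]
        rintro _ ⟨j, rfl⟩
        simp only [SetLike.mem_coe, LinearMap.mem_ker, LinearMap.proj_apply]
        exact Pi.single_eq_of_ne (fun h : i = (j : κ) => hi (h ▸ j.2)) _
      exact LinearMap.mem_ker.1 (this hc)
    have h := hH _ hxH
    simp only [mulVecLin_apply, form_mulVec, hT, hμ, form_diag] at h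
    rw [← diagonal_one, form_diag, mul_sum] at h
    have h0 : ∀ i ∈ (univ : Finset κ), 0 ≤ (μ i - α) * c i ^ 2 := fun i _ => by
      by_cases hi : i ∈ S
      · exact mul_nonneg (by linarith [(mem_filter.1 hi).2]) (sq_nonneg _)
      · simp [hsupp i hi]
    have hsum : ∑ i, (μ i - α) * c i ^ 2 = 0 := by
      refine le_antisymm ?_ (sum_nonneg h0)
      simp only [sub_mul, sum_sub_distrib]
      simp only [one_mul] at h
      linarith
    have hc0 : c = 0 := funext fun i => by
      by_cases hi : i ∈ S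
      · have := (sum_eq_zero_iff_of_nonneg h0).1 hsum i (mem_univ i)
        have hpos : 0 < μ i - α := by linarith [(mem_filter.1 hi).2]
        simpa [hpos.ne'] using this
      · exact hsupp i hi
    simp [hc0]
  have h1 := Submodule.finrank_sup_add_finrank_inf_eq E H
  rw [hdisj, finrank_bot, hE] at h1
  have h2 := Submodule.finrank_le (E ⊔ H)
  rw [Module.finrank_fintype_fun_eq_card] at h2
  omega

/-- The determinant of a form that is small on a subspace of codimension `k`. -/
theorem abs_det_le {P Q : Matrix κ κ ℝ} (hP : P.PosDef) (hQ : Q.IsSymm) {α β : ℝ} (hα : 0 < α)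
    (hαβ : α ≤ β) (H : Submodule ℝ (κ → ℝ)) {k : ℕ}
    (hdim : Fintype.card κ ≤ Module.finrank ℝ H + k)
    (hH : ∀ x ∈ H, |x ⬝ᵥ (Q *ᵥ x)| ≤ α * (x ⬝ᵥ (P *ᵥ x)))
    (hall : ∀ x, |x ⬝ᵥ (Q *ᵥ x)| ≤ β * (x ⬝ᵥ (P *ᵥ x))) :
    |Q.det| ≤ α ^ Fintype.card κ * (β / α) ^ (2 * k) * P.det := by
  classical
  obtain ⟨T, μ, hT, hμ⟩ := exists_simul_diag hP hQ
  have hd1 : T.det * P.det * T.det = 1 := by
    have := congrArg det hT
    simpa [det_mul, det_transpose] using this
  have hd2 : T.det * Q.det * T.det = ∏ i, μ i := by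
    have := congrArg det hμ
    simpa [det_mul, det_transpose, det_diagonal] using this
  have hQd : |Q.det| = (∏ i, |μ i|) * P.det := by
    have : Q.det = (∏ i, μ i) * P.det := by
      rw [← hd2]
      calc Q.det = (T.det * P.det * T.det) * Q.det := by rw [hd1, one_mul]
        _ = _ := by ring
    rw [this, abs_mul, abs_prod, abs_of_pos hP.det_pos]
  have hle : ∀ i, |μ i| ≤ β := fun i => by
    have h := hall (T *ᵥ Pi.single i 1)
    rw [form_mulVec, form_mulVec, hT, hμ, form_diag, one_mulVec] at h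
    simpa [Pi.single_apply] using h
  set S := univ.filter fun i => α < |μ i|
  have hS : S.card ≤ 2 * k := by
    have h1 := card_big_le hT hμ H hdim fun x hx => (le_abs_self _).trans (hH x hx)
    have h2 := card_big_le (Q := -Q) (μ := fun i => -μ i) (α := α) hT
      (by rw [Matrix.mul_neg, Matrix.neg_mul, hμ]; exact diagonal_neg μ) H hdim
      fun x hx => by
        rw [neg_mulVec, dotProduct_neg]
        exact (neg_le_abs _).trans (hH x hx)
    have h3 : S ⊆ (univ.filter fun i => α < μ i) ∪ univ.filter fun i => α < -μ i := fun i hi => by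
      simp only [S, mem_filter, mem_univ, true_and, mem_union] at hi ⊢
      exact lt_abs.1 hi
    have := (card_le_card h3).trans (card_union_le _ _)
    omega
  rw [hQd]
  refine mul_le_mul_of_nonneg_right ?_ hP.det_pos.le
  calc ∏ i, |μ i| ≤ ∏ i, α * (if i ∈ S then β / α else 1) := by
        refine Finset.prod_le_prod (fun i _ => abs_nonneg _) fun i _ => ?_
        split_ifs with hi
        · rw [mul_div_cancel₀ _ hα.ne']; exact hle i
        · simpa [S] using hi
    _ = α ^ Fintype.card κ * (β / α) ^ S.card := by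
        rw [prod_mul_distrib, prod_const, card_univ, prod_ite_mem, univ_inter, prod_const]
    _ ≤ _ := mul_le_mul_of_nonneg_left
        (pow_le_pow_right₀ ((one_le_div hα).2 hαβ) hS) (pow_nonneg hα.le _)

/-- The determinant is monotone on positive forms. -/
theorem det_le_det {P Q : Matrix κ κ ℝ} (hP : P.PosDef) (hQ : Q.IsSymm)
    (h : ∀ x, x ⬝ᵥ (P *ᵥ x) ≤ x ⬝ᵥ (Q *ᵥ x)) : P.det ≤ Q.det := by
  obtain ⟨T, μ, hT, hμ⟩ := exists_simul_diag hP hQ
  have h1 : ∀ i, 1 ≤ μ i := fun i => by
    have h' := h (T *ᵥ Pi.single i 1)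
    rw [form_mulVec, form_mulVec, hT, hμ, form_diag, one_mulVec] at h'
    simpa [Pi.single_apply] using h'
  have hd1 : T.det * P.det * T.det = 1 := by
    have := congrArg det hT
    simpa [det_mul, det_transpose] using this
  have hd2 : T.det * Q.det * T.det = ∏ i, μ i := by
    have := congrArg det hμ
    simpa [det_mul, det_transpose, det_diagonal] using this
  have hQd : Q.det = (∏ i, μ i) * P.det := by
    rw [← hd2]
    calc Q.det = (T.det * P.det * T.det) * Q.det := by rw [hd1, one_mul]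
      _ = _ := by ring
  rw [hQd]
  exact le_mul_of_one_le_left hP.det_pos.le (Finset.one_le_prod fun i _ => h1 i)

end Vale.Agent.P160R.Points
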