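import Vale.Agent.P160R.Defs
import Vale.Agent.P160R.Points.Linear
import Vale.Agent.P160R.Points.Split

/-!
# The majorant form of a sign matrix
-/

namespace Vale.Agent.P160R.Points

open Finset Matrix

variable {ι : Type} [Fintype ι] [DecidableEq ι]

/-- Integers to reals, entrywise. -/
def rc {κ lam : Type*} (X : Matrix κ lam ℤ) : Matrix κ lam ℝ := X.map (Int.cast : ℤ → ℝ)

/-- The real inverse. -/
noncomputable def qR (B : Matrix ι ι ℤ) : Matrix ι ι ℝ := (rc B)⁻¹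

/-- The majorant form. -/
noncomputable def maj (B : Matrix ι ι ℤ) (a : ℝ) : Matrix ι ι ℝ := a • (1 + (qR B)ᵀ * qR B)

lemma rc_mul {κ lam μ : Type*} [Fintype lam] (X : Matrix κ lam ℤ) (Y : Matrix lam μ ℤ) :
    rc (X * Y) = rc X * rc Y := by
  ext i j; simp [rc, Matrix.mul_apply]

lemma rc_transpose {κ lam : Type*} (X : Matrix κ lam ℤ) : rc Xᵀ = (rc X)ᵀ := rfl

lemma det_rc {κ : Type*} [Fintype κ] [DecidableEq κ] (X : Matrix κ κ ℤ) :
    (rc X).det = (X.det : ℝ) := ((Int.castRingHom ℝ).map_det X).symm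

lemma qR_eq (B : Matrix ι ι ℤ) : qR B = ((B.det : ℝ))⁻¹ • rc B.adjugate := by
  rw [qR, Matrix.inv_def, det_rc, Ring.inverse_eq_inv']
  congr 1
  exact ((Int.castRingHom ℝ).map_adjugate B).symm

lemma qInv_eq (B : Matrix ι ι ℤ) :
    qInv B = ((B.det : ℚ))⁻¹ • B.adjugate.map (Int.cast : ℤ → ℚ) := by
  have h1 : (B.map (Int.cast : ℤ → ℚ)).det = (B.det : ℚ) := ((Int.castRingHom ℚ).map_det B).symm
  rw [qInv, Matrix.inv_def, h1, Ring.inverse_eq_inv']
  congr 1
  exact ((Int.castRingHom ℚ).map_adjugate B).symm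

lemma qVec_cast (B : Matrix ι ι ℤ) (x : ι → ℤ) (i : ι) :
    ((qVec B x i : ℚ) : ℝ) = (qR B *ᵥ fun l => (x l : ℝ)) i := by
  rw [qVec, qInv_eq, qR_eq, smul_mulVec, smul_mulVec]
  simp [rc, Matrix.mulVec, dotProduct]

lemma qR_symm {B : Matrix ι ι ℤ} (hB : B.IsSymm) : (qR B).IsSymm := by
  rw [qR, Matrix.IsSymm, transpose_nonsing_inv, ← rc_transpose, hB.eq]

omit [DecidableEq ι] in
lemma form_pull {κ : Type*} [Fintype κ] (M : Matrix ι ι ℝ) (X : Matrix ι κ ℝ) (c : κ → ℝ) :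
    c ⬝ᵥ ((Xᵀ * M * X) *ᵥ c) = (X *ᵥ c) ⬝ᵥ (M *ᵥ (X *ᵥ c)) := by
  rw [← mulVec_mulVec, ← mulVec_mulVec, dotProduct_mulVec, vecMul_transpose]

omit [DecidableEq ι] in
lemma dot_self (x : ι → ℝ) : x ⬝ᵥ x = ∑ i, x i ^ 2 := by simp [dotProduct, sq]

lemma maj_form (B : Matrix ι ι ℤ) (a : ℝ) (x : ι → ℝ) :
    x ⬝ᵥ (maj B a *ᵥ x) = a * (x ⬝ᵥ x + (qR B *ᵥ x) ⬝ᵥ (qR B *ᵥ x)) := by
  rw [maj, smul_mulVec, dotProduct_smul, add_mulVec, one_mulVec, dotProduct_add,
    ← mulVec_mulVec, dotProduct_mulVec x, vecMul_transpose, smul_eq_mul]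

lemma maj_symm (B : Matrix ι ι ℤ) (a : ℝ) : (maj B a).IsSymm := by
  simp [maj, Matrix.IsSymm, transpose_mul]

omit [DecidableEq ι] in
lemma pull_symm {κ : Type*} {M : Matrix ι ι ℝ} (hM : M.IsSymm) (X : Matrix ι κ ℝ) :
    (Xᵀ * M * X).IsSymm := by
  simp [Matrix.IsSymm, transpose_mul, Matrix.mul_assoc, hM.eq]

omit [DecidableEq ι] in
/-- An integral matrix with trivial kernel has a positive Gram matrix of determinant at least one. -/
lemma gram_pos {κ : Type*} [Fintype κ] [DecidableEq κ] (X : Matrix ι κ ℤ)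
    (hX : ∀ c, X *ᵥ c = 0 → c = 0) :
    ((rc X)ᵀ * rc X).PosDef ∧ 1 ≤ ((rc X)ᵀ * rc X).det ∧ ∀ c, rc X *ᵥ c = 0 → c = 0 := by
  have hne : (Xᵀ * X).det ≠ 0 := fun h => by
    obtain ⟨c, hc, hc0⟩ := Matrix.exists_mulVec_eq_zero_iff.2 h
    refine hc (hX c ?_)
    have h1 : c ⬝ᵥ ((Xᵀ * X) *ᵥ c) = 0 := by rw [hc0, dotProduct_zero]
    rw [← mulVec_mulVec, dotProduct_mulVec, vecMul_transpose] at h1
    exact dotProduct_self_eq_zero.1 h1
  have hdet : ((rc X)ᵀ * rc X).det = ((Xᵀ * X).det : ℝ) := by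
    rw [← rc_transpose, ← rc_mul, det_rc]
  have hinj : ∀ c, rc X *ᵥ c = 0 → c = 0 := fun c hc => by
    by_contra h
    have := Matrix.exists_mulVec_eq_zero_iff.1 ⟨c, h,
      show ((rc X)ᵀ * rc X) *ᵥ c = 0 by rw [← mulVec_mulVec, hc, mulVec_zero]⟩
    rw [hdet] at this
    exact hne (by exact_mod_cast this)
  have hpd : ((rc X)ᵀ * rc X).PosDef := by
    refine Matrix.PosDef.of_dotProduct_mulVec_pos ?_ fun c hc => ?_
    · rw [Matrix.IsHermitian, conjTranspose_eq_transpose_of_trivial, transpose_mul,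
        transpose_transpose]
    · rw [star_trivial, ← mulVec_mulVec, dotProduct_mulVec, vecMul_transpose, dot_self]
      obtain ⟨i, hi⟩ := Function.ne_iff.1 (fun h => hc (hinj c h) : rc X *ᵥ c ≠ 0)
      exact sum_pos' (fun j _ => sq_nonneg _) ⟨i, mem_univ i, by
        simp only [Pi.zero_apply] at hi; positivity⟩
  refine ⟨hpd, ?_, hinj⟩
  have := hpd.det_pos
  rw [hdet] at this ⊢
  exact_mod_cast (show (1 : ℤ) ≤ (Xᵀ * X).det by
    have : (0 : ℤ) < (Xᵀ * X).det := by exact_mod_cast this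
    omega)

/-- The majorant pulled back along an integral matrix dominates its Gram matrix. -/
lemma maj_pos {κ : Type*} [Fintype κ] [DecidableEq κ] (B : Matrix ι ι ℤ) {a : ℝ} (ha : 0 < a)
    (X : Matrix ι κ ℝ) (hX : ∀ c, X *ᵥ c = 0 → c = 0) : (Xᵀ * maj B a * X).PosDef := by
  refine Matrix.PosDef.of_dotProduct_mulVec_pos ?_ fun c hc => ?_
  · rw [Matrix.IsHermitian, conjTranspose_eq_transpose_of_trivial]
    exact (pull_symm (maj_symm B a) X).eq
  · rw [star_trivial, form_pull, maj_form]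
    refine mul_pos ha (add_pos_of_pos_of_nonneg ?_ (dot_self (qR B *ᵥ (X *ᵥ c)) ▸ by positivity))
    rw [dot_self]
    obtain ⟨i, hi⟩ := Function.ne_iff.1 (fun h => hc (hX c h) : X *ᵥ c ≠ 0)
    exact sum_pos' (fun j _ => sq_nonneg _) ⟨i, mem_univ i, by
      simp only [Pi.zero_apply] at hi; positivity⟩

lemma gram_le_maj {κ : Type*} [Fintype κ] [DecidableEq κ] (B : Matrix ι ι ℤ) {a : ℝ} (ha : 0 < a)
    (X : Matrix ι κ ℤ) (hX : ∀ c, X *ᵥ c = 0 → c = 0) :
    a ^ Fintype.card κ * ((rc X)ᵀ * rc X).det ≤ ((rc X)ᵀ * maj B a * rc X).det := by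
  rw [← det_smul]
  refine det_le_det ((gram_pos X hX).1.smul ha) (pull_symm (maj_symm B a) _) fun c => ?_
  rw [form_pull, maj_form, smul_mulVec, dotProduct_smul, smul_eq_mul, ← mulVec_mulVec,
    dotProduct_mulVec c, vecMul_transpose, dot_self, dot_self]
  exact mul_le_mul_of_nonneg_left (le_add_of_nonneg_right (by positivity)) ha.le

lemma abs_form_le (B : Matrix ι ι ℤ) {a : ℝ} (ha : 0 < a) (x : ι → ℝ) :
    |x ⬝ᵥ (qR B *ᵥ x)| ≤ (2 * a)⁻¹ * (x ⬝ᵥ (maj B a *ᵥ x)) := by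
  rw [maj_form, ← mul_assoc, show (2 * a)⁻¹ * a = 1 / 2 by field_simp, dot_self, dot_self,
    dotProduct, ← sum_add_distrib, mul_sum]
  refine (abs_sum_le_sum_abs _ _).trans (sum_le_sum fun i _ => ?_)
  rw [abs_le]
  constructor <;> nlinarith [sq_nonneg (x i - (qR B *ᵥ x) i), sq_nonneg (x i + (qR B *ᵥ x) i)]

/-- Functions supported on a set. -/
def supp (S : Finset ι) : Submodule ℝ (ι → ℝ) :=
  Submodule.span ℝ (Set.range fun i : S => Pi.single (i : ι) (1 : ℝ))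

omit [Fintype ι] in
lemma supp_zero {S : Finset ι} {c : ι → ℝ} (hc : c ∈ supp S) {i : ι} (hi : i ∉ S) : c i = 0 := by
  have : supp S ≤ LinearMap.ker (LinearMap.proj i : (ι → ℝ) →ₗ[ℝ] ℝ) := by
    rw [supp, Submodule.span_le]
    rintro _ ⟨j, rfl⟩
    simp only [SetLike.mem_coe, LinearMap.mem_ker, LinearMap.proj_apply]
    exact Pi.single_eq_of_ne (fun h : i = (j : ι) => hi (h ▸ j.2)) _
  exact LinearMap.mem_ker.1 (this hc)

lemma finrank_supp (S : Finset ι) : Module.finrank ℝ (supp S) = S.card := by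
  rw [supp, finrank_span_eq_card, Fintype.card_coe]
  have h := (Pi.basisFun ℝ ι).linearIndependent.comp (fun i : S => (i : ι))
    Subtype.val_injective
  convert h using 1
  funext i
  simp

/-- Away from few directions the inverse is small. -/
lemma exists_good_space {B : Matrix ι ι ℤ} (hB : B.IsSymm) (hdet : B.det ≠ 0) {δ : ℝ}
    (hs : ¬ SmallSpace δ B) {t : ℝ} (ht : 0 < t)
    (htm : t ^ 2 ≤ (Fintype.card ι : ℝ) ^ (1 / 10 : ℝ)) :
    ∃ (H : Submodule ℝ (ι → ℝ)) (k : ℕ), Fintype.card ι ≤ Module.finrank ℝ H + k ∧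
      (k : ℝ) ≤ δ * Fintype.card ι ∧ ∀ x ∈ H, |x ⬝ᵥ (qR B *ᵥ x)| ≤ t⁻¹ * (x ⬝ᵥ x) := by
  obtain ⟨U, l, hU1, hU2, hUB⟩ := exists_orth_diag (rc B) (by
    rw [Matrix.IsSymm, ← rc_transpose, hB.eq])
  have hBU : rc B = U * diagonal l * Uᵀ := by
    rw [← hUB]
    simp only [Matrix.mul_assoc, hU2, Matrix.mul_one]
    rw [← Matrix.mul_assoc, hU2, Matrix.one_mul]
  have hl : ∀ i, l i ≠ 0 := fun i hi => hdet (by
    have h := congrArg det hBU
    rw [det_rc, det_mul, det_mul, det_diagonal, prod_eq_zero (mem_univ i) hi] at h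
    simpa using h)
  have hQ : qR B = U * diagonal (fun i => (l i)⁻¹) * Uᵀ := by
    rw [qR]
    refine inv_eq_right_inv ?_
    rw [hBU]
    calc U * diagonal l * Uᵀ * (U * diagonal (fun i => (l i)⁻¹) * Uᵀ)
        = U * diagonal l * (Uᵀ * U) * diagonal (fun i => (l i)⁻¹) * Uᵀ := by
          simp only [Matrix.mul_assoc]
      _ = 1 := by
          rw [hU1, Matrix.mul_one, Matrix.mul_assoc U, diagonal_mul_diagonal]
          simp [mul_inv_cancel₀ (hl _), hU2]
  have hinj : Function.Injective U.mulVecLin := fun a b h => by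
    have := congrArg (Uᵀ *ᵥ ·) h
    simpa [hU1] using this
  set S := univ.filter fun i => |l i| < t
  refine ⟨(supp Sᶜ).map U.mulVecLin, S.card, ?_, ?_, ?_⟩
  · rw [← (Submodule.equivMapOfInjective _ hinj _).finrank_eq, finrank_supp, card_compl]
    omega
  · by_contra hcon
    refine hs ⟨(supp S).map U.mulVecLin, ?_, ?_⟩
    · rw [← (Submodule.equivMapOfInjective _ hinj _).finrank_eq, finrank_supp]
      exact (not_le.1 hcon).le
    · intro u hu
      obtain ⟨c, hc, rfl⟩ := Submodule.mem_map.1 hu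
      rw [show B.map (Int.cast : ℤ → ℝ) = rc B from rfl, mulVecLin_apply, ← dot_self, ← dot_self,
        mulVec_mulVec, show rc B * U = U * diagonal l by
          rw [hBU, Matrix.mul_assoc, hU1, Matrix.mul_one], ← mulVec_mulVec]
      have e : ∀ v : ι → ℝ, (U *ᵥ v) ⬝ᵥ (U *ᵥ v) = v ⬝ᵥ v := fun v => by
        rw [dotProduct_mulVec, ← mulVec_transpose, mulVec_mulVec, hU1, one_mulVec]
      rw [e, e, dot_self, dot_self, mul_sum]
      refine sum_le_sum fun i _ => ?_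
      rw [mulVec_diagonal, mul_pow]
      by_cases hi : i ∈ S
      · refine mul_le_mul_of_nonneg_right (le_trans ?_ htm) (sq_nonneg _)
        rw [← sq_abs]
        exact pow_le_pow_left₀ (abs_nonneg _) (mem_filter.1 hi).2.le 2
      · simp [supp_zero hc hi]
  · intro x hx
    obtain ⟨c, hc, rfl⟩ := Submodule.mem_map.1 hx
    simp only [mulVecLin_apply]
    rw [hQ, form_mulVec, show Uᵀ * (U * diagonal (fun i => (l i)⁻¹) * Uᵀ) * U
        = diagonal (fun i => (l i)⁻¹) by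
      simp only [Matrix.mul_assoc, hU1, Matrix.mul_one]
      rw [← Matrix.mul_assoc, hU1, Matrix.one_mul], form_diag,
      dotProduct_mulVec, ← mulVec_transpose, mulVec_mulVec, hU1, one_mulVec, dot_self, mul_sum]
    refine (abs_sum_le_sum_abs _ _).trans (sum_le_sum fun i _ => ?_)
    rw [abs_mul, abs_of_nonneg (sq_nonneg (c i))]
    by_cases hi : i ∈ Sᶜ
    · refine mul_le_mul_of_nonneg_right ?_ (sq_nonneg _)
      rw [abs_inv]
      exact inv_anti₀ ht (not_lt.1 (by simpa [S] using hi))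
    · simp [supp_zero hc hi]

end Vale.Agent.P160R.Points
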